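import Mathlib

open MeasureTheory Set
open scoped ENNReal NNReal Pointwise

namespace Vale.Agent.P074

namespace PL

/-- One-dimensional Brunn–Minkowski. -/
theorem bm1 {A B C : Set ℝ} (hA : MeasurableSet A) (hB : MeasurableSet B)
    (hAn : A.Nonempty) (hBn : B.Nonempty) (h : ∀ a ∈ A, ∀ b ∈ B, a + b ∈ C) :
    volume A + volume B ≤ volume C := by
  have key : ∀ K : Set ℝ, (K ⊆ A ∧ IsCompact K) → ∀ L : Set ℝ, (L ⊆ B ∧ IsCompact L) →
      volume K + volume L ≤ volume C := by
    rintro K ⟨hKA, hK⟩ L ⟨hLB, hL⟩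
    obtain ⟨a0, ha0⟩ := hAn
    obtain ⟨b0, hb0⟩ := hBn
    have hK' : IsCompact (insert a0 K) := hK.insert a0
    have hL' : IsCompact (insert b0 L) := hL.insert b0
    obtain ⟨m, hm, hm2⟩ := hK'.exists_isGreatest (insert_nonempty _ _)
    obtain ⟨l, hl, hl2⟩ := hL'.exists_isLeast (insert_nonempty _ _)
    have hKA' : insert a0 K ⊆ A := insert_subset ha0 hKA
    have hLB' : insert b0 L ⊆ B := insert_subset hb0 hLB
    have h1 : (fun x => l + x) '' K ∪ (fun x => m + x) '' L ⊆ C := by
      rintro z (⟨x, hx, rfl⟩ | ⟨x, hx, rfl⟩)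
      · have := h x (hKA hx) l (hLB' hl)
        simpa [add_comm] using this
      · exact h m (hKA' hm) x (hLB hx)
    have h2 : volume ((fun x => l + x) '' K ∪ (fun x => m + x) '' L) = volume K + volume L := by
      rw [measure_union₀]
      · rw [image_add_left, image_add_left, measure_preimage_add, measure_preimage_add]
      · exact ((hL.image (by fun_prop)).measurableSet).nullMeasurableSet
      · have : (fun x => l + x) '' K ∩ (fun x => m + x) '' L ⊆ {m + l} := by
          rintro z ⟨⟨x, hx, rfl⟩, ⟨y, hy, hxy⟩⟩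
          have hx' : x ≤ m := hm2 (mem_insert_of_mem _ hx)
          have hy' : l ≤ y := hl2 (mem_insert_of_mem _ hy)
          simp only [mem_singleton_iff] at *
          linarith
        exact measure_mono_null this (by simp)
    rw [← h2]
    exact measure_mono h1
  rw [hA.measure_eq_iSup_isCompact, hB.measure_eq_iSup_isCompact]
  simp only [iSup_and'] 
  exact ENNReal.biSup_add_biSup_le' ⟨∅, empty_subset _, isCompact_empty⟩
    ⟨∅, empty_subset _, isCompact_empty⟩ key

theorem layer {V : Type*} [MeasurableSpace V] (μ : Measure V) (K : V → ℝ≥0∞) (hK : Measurable K)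
    (h1 : ∀ x, K x ≤ 1) :
    ∫⁻ x, K x ∂μ = ∫⁻ t in Ioi (0 : ℝ), μ {x | ENNReal.ofReal t < K x} := by
  have h2 : ∀ x, K x ≠ ∞ := fun x => ne_top_of_le_ne_top ENNReal.one_ne_top (h1 x)
  have h3 : ∀ x, K x = ENNReal.ofReal (K x).toReal := fun x => (ENNReal.ofReal_toReal (h2 x)).symm
  calc ∫⁻ x, K x ∂μ = ∫⁻ x, ENNReal.ofReal (K x).toReal ∂μ := by
        simp_rw [← h3]
    _ = ∫⁻ t in Ioi (0 : ℝ), μ {x | t < (K x).toReal} := by
        apply lintegral_eq_lintegral_meas_lt
        · exact Filter.Eventually.of_forall fun x => ENNReal.toReal_nonneg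
        · exact hK.ennreal_toReal.aemeasurable
    _ = _ := by
        apply setLIntegral_congr_fun measurableSet_Ioi
        intro t ht
        simp only
        congr 1
        ext x
        simp only [mem_ofPred_eq]
        rw [ENNReal.ofReal_lt_iff_lt_toReal (le_of_lt ht) (h2 x)]

theorem amgm {lam : ℝ} (h0 : 0 < lam) (h1 : lam < 1) (a b : ℝ≥0∞) :
    a ^ (1 - lam) * b ^ lam ≤ ENNReal.ofReal (1 - lam) * a + ENNReal.ofReal lam * b := by
  have h1' : 0 < 1 - lam := by linarith
  have hpq : (1 / (1 - lam)).HolderConjugate (1 / lam) := by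
    rw [Real.holderConjugate_iff]
    constructor
    · rw [lt_div_iff₀ h1']; linarith
    · simp
  have := ENNReal.young_inequality (a ^ (1 - lam)) (b ^ lam) hpq
  refine this.trans (le_of_eq ?_)
  rw [← ENNReal.rpow_mul, ← ENNReal.rpow_mul, mul_one_div_cancel h1'.ne', mul_one_div_cancel h0.ne']
  rw [ENNReal.rpow_one, ENNReal.rpow_one]
  congr 1
  · rw [ENNReal.div_eq_inv_mul, one_div, ENNReal.ofReal_inv_of_pos h1', inv_inv]
  · rw [ENNReal.div_eq_inv_mul, one_div, ENNReal.ofReal_inv_of_pos h0, inv_inv]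

theorem pl1_norm {lam : ℝ} (h0 : 0 < lam) (h1 : lam < 1) (F G H : ℝ → ℝ≥0∞)
    (hF : Measurable F) (hG : Measurable G) (hH : Measurable H)
    (hF1 : ∀ x, F x ≤ 1) (hG1 : ∀ x, G x ≤ 1) (hF2 : ∀ t < 1, ∃ x, t < F x)
    (hG2 : ∀ t < 1, ∃ x, t < G x)
    (h : ∀ x y, F x ^ (1 - lam) * G y ^ lam ≤ H ((1 - lam) * x + lam * y)) :
    (∫⁻ x, F x) ^ (1 - lam) * (∫⁻ x, G x) ^ lam ≤ ∫⁻ x, H x := by
  have h1' : 0 < 1 - lam := by linarith
  refine (amgm h0 h1 _ _).trans ?_
  have hH' : Measurable fun x => min (H x) 1 := hH.min measurable_const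
  have hm : ∀ K : ℝ → ℝ≥0∞, Measurable (fun t : ℝ => volume {x | ENNReal.ofReal t < K x}) := by
    intro K
    apply Antitone.measurable
    intro s t hst
    apply measure_mono
    intro x hx
    exact lt_of_le_of_lt (ENNReal.ofReal_le_ofReal hst) hx
  calc ENNReal.ofReal (1 - lam) * (∫⁻ x, F x) + ENNReal.ofReal lam * ∫⁻ x, G x
      = ∫⁻ t in Ioi (0 : ℝ), (ENNReal.ofReal (1 - lam) * volume {x | ENNReal.ofReal t < F x} +
          ENNReal.ofReal lam * volume {x | ENNReal.ofReal t < G x}) := by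
        rw [lintegral_add_left ((hm F).const_mul _), lintegral_const_mul _ (hm F),
          lintegral_const_mul _ (hm G), ← layer _ F hF hF1, ← layer _ G hG hG1]
    _ ≤ ∫⁻ t in Ioi (0 : ℝ), volume {x | ENNReal.ofReal t < min (H x) 1} := by
        apply setLIntegral_mono (hm _)
        intro t ht
        have ht0 : (0 : ℝ) < t := ht
        rcases lt_or_ge t 1 with ht1 | ht1
        · have ht2 : ENNReal.ofReal t < 1 := by
            rw [← ENNReal.ofReal_one]
            exact (ENNReal.ofReal_lt_ofReal_iff one_pos).2 ht1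
          have e1 : ENNReal.ofReal (1 - lam) * volume {x | ENNReal.ofReal t < F x} =
              volume ((1 - lam) • {x | ENNReal.ofReal t < F x}) := by
            rw [Measure.addHaar_smul]
            simp [abs_of_pos h1']
          have e2 : ENNReal.ofReal lam * volume {x | ENNReal.ofReal t < G x} =
              volume (lam • {x | ENNReal.ofReal t < G x}) := by
            rw [Measure.addHaar_smul]
            simp [abs_of_pos h0]
          rw [e1, e2]
          apply bm1
          · exact (measurableSet_lt measurable_const hF).const_smul_of_ne_zero h1'.ne'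
          · exact (measurableSet_lt measurable_const hG).const_smul_of_ne_zero h0.ne'
          · obtain ⟨x, hx⟩ := hF2 _ ht2
            exact ⟨_, smul_mem_smul_set (a := 1 - lam) hx⟩
          · obtain ⟨x, hx⟩ := hG2 _ ht2
            exact ⟨_, smul_mem_smul_set (a := lam) hx⟩
          · rintro _ ⟨x, hx, rfl⟩ _ ⟨y, hy, rfl⟩
            simp only [mem_ofPred_eq, smul_eq_mul] at hx hy ⊢
            rw [lt_min_iff]
            refine ⟨lt_of_lt_of_le ?_ (h x y), ht2⟩
            have e3 : ENNReal.ofReal t = ENNReal.ofReal t ^ (1 - lam) * ENNReal.ofReal t ^ lam := by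
              rw [← ENNReal.rpow_add]
              · simp
              · simpa using ht0
              · exact ENNReal.ofReal_ne_top
            rw [e3]
            exact ENNReal.mul_lt_mul (ENNReal.rpow_lt_rpow hx h1') (ENNReal.rpow_lt_rpow hy h0)
        · have ht2 : 1 ≤ ENNReal.ofReal t := by
            rw [← ENNReal.ofReal_one]
            exact ENNReal.ofReal_le_ofReal ht1
          have e1 : {x | ENNReal.ofReal t < F x} = ∅ := by
            ext x
            simp only [mem_ofPred_eq, mem_empty_iff_false, iff_false, not_lt]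
            exact (hF1 x).trans ht2
          have e2 : {x | ENNReal.ofReal t < G x} = ∅ := by
            ext x
            simp only [mem_ofPred_eq, mem_empty_iff_false, iff_false, not_lt]
            exact (hG1 x).trans ht2
          simp [e1, e2]
    _ = ∫⁻ x, min (H x) 1 := (layer _ _ hH' (fun x => min_le_right _ _)).symm
    _ ≤ ∫⁻ x, H x := lintegral_mono fun x => min_le_left _ _

theorem pl1_bdd {lam : ℝ} (h0 : 0 < lam) (h1 : lam < 1) (F G H : ℝ → ℝ≥0∞)
    (hF : Measurable F) (hG : Measurable G) (hH : Measurable H)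
    (N : ℝ≥0) (hFN : ∀ x, F x ≤ N) (hGN : ∀ x, G x ≤ N)
    (h : ∀ x y, F x ^ (1 - lam) * G y ^ lam ≤ H ((1 - lam) * x + lam * y)) :
    (∫⁻ x, F x) ^ (1 - lam) * (∫⁻ x, G x) ^ lam ≤ ∫⁻ x, H x := by
  have h1' : 0 < 1 - lam := by linarith
  set a := ⨆ x, F x with ha
  set b := ⨆ x, G x with hb
  have ha1 : a ≠ ∞ := ne_top_of_le_ne_top ENNReal.coe_ne_top (iSup_le hFN)
  have hb1 : b ≠ ∞ := ne_top_of_le_ne_top ENNReal.coe_ne_top (iSup_le hGN)
  by_cases ha0 : a = 0
  · have : ∀ x, F x = 0 := by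
      intro x
      have : F x ≤ a := le_iSup F x
      rw [ha0] at this
      exact le_antisymm this bot_le
    simp [this, ENNReal.zero_rpow_of_pos h1']
  by_cases hb0 : b = 0
  · have : ∀ x, G x = 0 := by
      intro x
      have : G x ≤ b := le_iSup G x
      rw [hb0] at this
      exact le_antisymm this bot_le
    simp [this, ENNReal.zero_rpow_of_pos h0]
  set c := a ^ (1 - lam) * b ^ lam with hc
  have hc0 : c ≠ 0 := by
    rw [hc]
    refine mul_ne_zero ?_ ?_
    · exact (ENNReal.rpow_pos (pos_iff_ne_zero.2 ha0) ha1).ne'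
    · exact (ENNReal.rpow_pos (pos_iff_ne_zero.2 hb0) hb1).ne'
  have hc1 : c ≠ ∞ := by
    rw [hc]
    exact ENNReal.mul_ne_top (ENNReal.rpow_ne_top_of_nonneg h1'.le ha1)
      (ENNReal.rpow_ne_top_of_nonneg h0.le hb1)
  have key := pl1_norm h0 h1 (fun x => F x * a⁻¹) (fun x => G x * b⁻¹) (fun x => H x * c⁻¹)
    (hF.mul_const _) (hG.mul_const _) (hH.mul_const _)
    (fun x => by
      have : F x ≤ a := le_iSup F x
      calc F x * a⁻¹ ≤ a * a⁻¹ := by gcongr
        _ = 1 := ENNReal.mul_inv_cancel ha0 ha1)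
    (fun x => by
      have : G x ≤ b := le_iSup G x
      calc G x * b⁻¹ ≤ b * b⁻¹ := by gcongr
        _ = 1 := ENNReal.mul_inv_cancel hb0 hb1)
    (fun t ht => by
      have : t * a < a := by
        calc t * a < 1 * a := by
              rw [ENNReal.mul_lt_mul_iff_left ha0 ha1]; exact ht
          _ = a := one_mul a
      obtain ⟨x, hx⟩ := lt_iSup_iff.1 (this.trans_eq ha)
      refine ⟨x, ?_⟩
      rw [← div_eq_mul_inv]
      rw [ENNReal.lt_div_iff_mul_lt (Or.inl ha0) (Or.inl ha1)]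
      exact hx)
    (fun t ht => by
      have : t * b < b := by
        calc t * b < 1 * b := by
              rw [ENNReal.mul_lt_mul_iff_left hb0 hb1]; exact ht
          _ = b := one_mul b
      obtain ⟨x, hx⟩ := lt_iSup_iff.1 (this.trans_eq hb)
      refine ⟨x, ?_⟩
      rw [← div_eq_mul_inv]
      rw [ENNReal.lt_div_iff_mul_lt (Or.inl hb0) (Or.inl hb1)]
      exact hx)
    (fun x y => by
      have e : (F x * a⁻¹) ^ (1 - lam) * (G y * b⁻¹) ^ lam =
          (F x ^ (1 - lam) * G y ^ lam) * c⁻¹ := by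
        rw [ENNReal.mul_rpow_of_nonneg _ _ h1'.le, ENNReal.mul_rpow_of_nonneg _ _ h0.le,
          ENNReal.inv_rpow, ENNReal.inv_rpow, hc, ENNReal.mul_inv]
        · ring
        · left
          exact (ENNReal.rpow_pos (pos_iff_ne_zero.2 ha0) ha1).ne'
        · left
          exact ENNReal.rpow_ne_top_of_nonneg h1'.le ha1
      rw [e]
      gcongr
      exact h x y)
  rw [lintegral_mul_const _ hF, lintegral_mul_const _ hG, lintegral_mul_const _ hH,
    ENNReal.mul_rpow_of_nonneg _ _ h1'.le, ENNReal.mul_rpow_of_nonneg _ _ h0.le] at key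
  have e : (∫⁻ x, F x) ^ (1 - lam) * a⁻¹ ^ (1 - lam) * ((∫⁻ x, G x) ^ lam * b⁻¹ ^ lam) =
      ((∫⁻ x, F x) ^ (1 - lam) * (∫⁻ x, G x) ^ lam) * c⁻¹ := by
    rw [ENNReal.inv_rpow, ENNReal.inv_rpow, hc, ENNReal.mul_inv]
    · ring
    · left
      exact (ENNReal.rpow_pos (pos_iff_ne_zero.2 ha0) ha1).ne'
    · left
      exact ENNReal.rpow_ne_top_of_nonneg h1'.le ha1
  rw [e] at key
  have hci0 : c⁻¹ ≠ 0 := ENNReal.inv_ne_zero.2 hc1
  have hci1 : c⁻¹ ≠ ∞ := ENNReal.inv_ne_top.2 hc0
  exact (ENNReal.mul_le_mul_iff_left hci0 hci1).1 key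

theorem pl_trunc {V : Type*} [MeasurableSpace V] [AddCommGroup V] [Module ℝ V] (μ : Measure V)
    {lam : ℝ} (h0 : 0 < lam) (h1 : lam < 1)
    (F G H : V → ℝ≥0∞) (hF : Measurable F) (hG : Measurable G)
    (hb : ∀ N : ℕ, (∫⁻ x, min (F x) N ∂μ) ^ (1 - lam) * (∫⁻ x, min (G x) N ∂μ) ^ lam ≤
      ∫⁻ x, H x ∂μ) :
    (∫⁻ x, F x ∂μ) ^ (1 - lam) * (∫⁻ x, G x ∂μ) ^ lam ≤ ∫⁻ x, H x ∂μ := by
  have h1' : 0 < 1 - lam := by linarith
  have hlim : ∀ K : V → ℝ≥0∞, Measurable K →
      Filter.Tendsto (fun N : ℕ => ∫⁻ x, min (K x) N ∂μ) Filter.atTop (nhds (∫⁻ x, K x ∂μ)) := by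
    intro K hK
    apply lintegral_tendsto_of_tendsto_of_monotone
    · intro N
      exact (hK.min measurable_const).aemeasurable
    · refine Filter.Eventually.of_forall fun x => ?_
      intro N M hNM
      simp only
      gcongr
    · refine Filter.Eventually.of_forall fun x => ?_
      have : Filter.Tendsto (fun N : ℕ => min (K x) (N : ℝ≥0∞)) Filter.atTop
          (nhds (min (K x) ∞)) :=
        Filter.Tendsto.min tendsto_const_nhds ENNReal.tendsto_nat_nhds_top
      simpa using this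
  by_cases hF0 : ∫⁻ x, F x ∂μ = 0
  · rw [hF0, ENNReal.zero_rpow_of_pos h1', zero_mul]; exact bot_le
  by_cases hG0 : ∫⁻ x, G x ∂μ = 0
  · rw [hG0, ENNReal.zero_rpow_of_pos h0, mul_zero]; exact bot_le
  have t1 := (ENNReal.continuous_rpow_const (y := 1 - lam)).continuousAt.tendsto.comp (hlim F hF)
  have t2 := (ENNReal.continuous_rpow_const (y := lam)).continuousAt.tendsto.comp (hlim G hG)
  have n1 : (∫⁻ x, F x ∂μ) ^ (1 - lam) ≠ 0 := by
    simp [ENNReal.rpow_eq_zero_iff, hF0, h1'.not_gt]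
  have n2 : (∫⁻ x, G x ∂μ) ^ lam ≠ 0 := by
    simp [ENNReal.rpow_eq_zero_iff, hG0, h0.not_gt]
  have t3 := ENNReal.Tendsto.mul t1 (Or.inl n1) t2 (Or.inl n2)
  exact le_of_tendsto t3 (Filter.Eventually.of_forall hb)

theorem min_pl {lam : ℝ} (h0 : 0 < lam) (h1 : lam < 1) {a b c N : ℝ≥0∞}
    (h : a ^ (1 - lam) * b ^ lam ≤ c) :
    (min a N) ^ (1 - lam) * (min b N) ^ lam ≤ c :=
  le_trans (mul_le_mul' (ENNReal.rpow_le_rpow (min_le_left _ _) (by linarith))
    (ENNReal.rpow_le_rpow (min_le_left _ _) h0.le)) h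

/-- The Prékopa–Leindler property. -/
def PLP (V : Type*) [AddCommGroup V] [Module ℝ V] [MeasureSpace V] : Prop :=
  ∀ lam : ℝ, 0 < lam → lam < 1 → ∀ F G H : V → ℝ≥0∞, Measurable F → Measurable G →
    Measurable H → (∀ x y, F x ^ (1 - lam) * G y ^ lam ≤ H ((1 - lam) • x + lam • y)) →
    (∫⁻ x, F x) ^ (1 - lam) * (∫⁻ x, G x) ^ lam ≤ ∫⁻ x, H x

theorem plp_real : PLP ℝ := by
  intro lam h0 h1 F G H hF hG hH h
  apply pl_trunc _ h0 h1 F G H hF hG
  intro N
  refine pl1_bdd h0 h1 _ _ H (hF.min measurable_const) (hG.min measurable_const) hH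
    (N : ℝ≥0) (fun x => ?_) (fun x => ?_) (fun x y => ?_)
  · simp
  · simp
  · exact min_pl h0 h1 (h x y)

theorem PLP.prod {V W : Type*} [AddCommGroup V] [Module ℝ V] [MeasureSpace V]
    [AddCommGroup W] [Module ℝ W] [MeasureSpace W] [SFinite (volume : Measure V)]
    [SFinite (volume : Measure W)] (hV : PLP V) (hW : PLP W) :
    PLP (V × W) := by
  intro lam h0 h1 F G H hF hG hH h
  rw [Measure.volume_eq_prod, lintegral_prod _ hF.aemeasurable, lintegral_prod _ hG.aemeasurable,
    lintegral_prod _ hH.aemeasurable]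
  apply hV lam h0 h1 _ _ _ hF.lintegral_prod_right' hG.lintegral_prod_right'
    hH.lintegral_prod_right'
  intro x y
  apply hW lam h0 h1 _ _ _ (by fun_prop) (by fun_prop) (by fun_prop)
  intro u v
  exact h (x, u) (y, v)

theorem PLP.of_equiv {V W : Type*} [AddCommGroup V] [Module ℝ V] [MeasureSpace V]
    [AddCommGroup W] [Module ℝ W] [MeasureSpace W] (hV : PLP V) (e : W ≃ᵐ V)
    (he : MeasurePreserving e) (hlin : ∀ (a b : ℝ) (x y : V),
      e.symm (a • x + b • y) = a • e.symm x + b • e.symm y) :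
    PLP W := by
  intro lam h0 h1 F G H hF hG hH h
  have key : ∀ K : W → ℝ≥0∞, ∫⁻ x, K x = ∫⁻ y, K (e.symm y) := by
    intro K
    rw [← he.symm.lintegral_comp_emb e.symm.measurableEmbedding]
  rw [key F, key G, key H]
  apply hV lam h0 h1 _ _ _ (hF.comp e.symm.measurable) (hG.comp e.symm.measurable)
    (hH.comp e.symm.measurable)
  intro x y
  simp only [Function.comp, hlin]
  exact h _ _

theorem plp_pi (n : ℕ) : PLP (Fin n → ℝ) := by
  induction n with
  | zero =>
    intro lam h0 h1 F G H hF hG hH h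
    have key : ∀ K : (Fin 0 → ℝ) → ℝ≥0∞, ∫⁻ x, K x = K default := by
      intro K
      have : (volume : Measure (Fin 0 → ℝ)) = Measure.dirac default := by
        rw [volume_pi, Measure.pi_of_empty _ default]
      rw [this, lintegral_dirac]
    rw [key F, key G, key H]
    have := h default default
    rwa [Subsingleton.elim ((1 - lam) • (default : Fin 0 → ℝ) + lam • default) default] at this
  | succ n ih =>
    refine (plp_real.prod ih).of_equiv (MeasurableEquiv.piFinSuccAbove (fun _ => ℝ) 0)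
      (volume_preserving_piFinSuccAbove (fun _ => ℝ) 0) ?_
    intro a b x y
    ext i
    refine Fin.cases ?_ (fun j => ?_) i
    · simp [MeasurableEquiv.piFinSuccAbove, Fin.insertNthEquiv]
    · simp [MeasurableEquiv.piFinSuccAbove, Fin.insertNthEquiv]

end PL

/-- **Prékopa–Leindler** on `EuclideanSpace ℝ (Fin n)`. -/
theorem prekopa_leindler {n : ℕ} {lam : ℝ} (h0 : 0 < lam) (h1 : lam < 1)
    (F G H : EuclideanSpace ℝ (Fin n) → ℝ≥0∞)
    (hF : Measurable F) (hG : Measurable G) (hH : Measurable H)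
    (h : ∀ x y, F x ^ (1 - lam) * G y ^ lam ≤ H ((1 - lam) • x + lam • y)) :
    (∫⁻ x, F x) ^ (1 - lam) * (∫⁻ x, G x) ^ lam ≤ ∫⁻ x, H x := by
  have : PL.PLP (EuclideanSpace ℝ (Fin n)) := by
    refine (PL.plp_pi n).of_equiv (MeasurableEquiv.toLp 2 (Fin n → ℝ)).symm
      (EuclideanSpace.volume_preserving_symm_measurableEquiv_toLp (Fin n)) ?_
    intro a b x y
    ext i
    simp
  exact this lam h0 h1 F G H hF hG hH h

end Vale.Agent.P074
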